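import Vale.Agent.P285.R3.H243.Defs

/-! Flips of toric bundles over complex tori. -/

namespace Vale.Agent.P277.ToricFlips

open Vale.Agent.P270 (Torus Factor IsStable)
open Vale.Agent.P285.ToricOverTori

variable {g n s : ℕ}

/-- The toric bundle over `T` with fibre `F`, twisted by the line bundles `L i` on `T`. -/
def bundle (T : Torus g) (L : Fin n → Factor T) (F : ToricVariety n s) : ToricBundle g n s :=
  ⟨T, F, L⟩

/-- The class `a ∈ ℤ^s = Cl F` is ample on `F` (so that `a` together with any line bundle on `T` is
relatively ample on the toric bundle `X → T` with fibre `F`): the points at which some monomial of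
degree `k a`, `k > 0`, does not vanish are the stable points of `F`. -/
def IsAmple (F : ToricVariety n s) (a : Fin s → ℤ) : Prop :=
  ∀ t, IsStable F.deg a t ↔ IsStable F.deg F.amp t

/-- The class `w` is semiample on `F`: it defines a morphism `f : X → Z` over `T`, where `Z` is the
toric bundle (not necessarily `ℚ`-factorial) with homogeneous coordinate ring `⨁ k, (degree k w)`. -/
def IsSemiampleClass (F : ToricVariety n s) (w : Fin s → ℤ) : Prop :=
  ∀ t, IsStable F.deg F.amp t → IsStable F.deg w t

/-- A divisorial sheaf of class `a` is ample relatively to the morphism `f : X → Z` of the semiample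
class `w`: some `a + k w` is ample. -/
def IsRelAmple (F : ToricVariety n s) (w a : Fin s → ℤ) : Prop :=
  ∃ k : ℕ, IsAmple F (fun j => a j + k * w j)

/-- The real class `D` is ample relatively to the morphism `f : X → Z` of the class `w`: it is a
positive combination of relatively ample classes. -/
def IsRealRelAmple (F : ToricVariety n s) (w : Fin s → ℤ) (D : Fin s → ℝ) : Prop :=
  ∃ (m : ℕ) (r : Fin (m + 1) → ℝ) (a : Fin (m + 1) → Fin s → ℤ), (∀ l, 0 < r l) ∧
    (∀ l, IsRelAmple F w (a l)) ∧ ∀ j, D j = ∑ l, r l * a l j

/-- `X ⇢ X'` is a flip for the real class `D`: the toric bundles `X` and `X'` have the same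
homogeneous coordinates, but different stable points (`X ⇢ X'` is not an isomorphism), and there are
morphisms `f : X → Z` and `f' : X' → Z` of one class `w` such that `-D` is `f`-ample and `D` is
`f'`-ample. -/
def IsFlip (X X' : ToricBundle g n s) (D : Fin s → ℝ) : Prop :=
  X'.F.deg = X.F.deg ∧
  (¬ ∀ t, IsStable X.F.deg X.F.amp t ↔ IsStable X'.F.deg X'.F.amp t) ∧
  ∃ w : Fin s → ℤ, IsSemiampleClass X.F w ∧ IsSemiampleClass X'.F w ∧
    IsRealRelAmple X.F w (-D) ∧ IsRealRelAmple X'.F w D

end Vale.Agent.P277.ToricFlips
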