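import Vale.Agent.P277.H178.Defs
import Vale.Agent.P285.R3.H243.Cone

/-! An example of a flip of toric bundles. -/

namespace Vale.Agent.P277.ToricFlips

open Vale.Agent.P270 (Torus Factor IsStable isStable_iff IsStable.mono)
open Vale.Agent.P285.ToricOverTori

/-- The degrees `(1,0), (1,0), (1,1), (0,1), (0,1)`. -/
def exDeg : Fin 5 → Fin 2 → ℤ := ![![1, 0], ![1, 0], ![1, 1], ![0, 1], ![0, 1]]

theorem ex_stable {a : Fin 2 → ℤ} {t : Fin 5 → ℂ} (h1 : a 1 < a 0) (h0 : 0 < a 1) :
    IsStable exDeg a t ↔ (t 0 ≠ 0 ∨ t 1 ≠ 0) ∧ (t 2 ≠ 0 ∨ t 3 ≠ 0 ∨ t 4 ≠ 0) := by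
  rw [isStable_iff_rat]
  have h1' : (a 1 : ℚ) < a 0 := by exact_mod_cast h1
  have h0' : (0 : ℚ) < a 1 := by exact_mod_cast h0
  constructor
  · rintro ⟨x, hx, hxd, hz⟩
    have e0 := hxd 0
    have e1 := hxd 1
    simp [exDeg, Fin.sum_univ_succ] at e0 e1
    have p0 := hx 0
    have p1 := hx 1
    have p2 := hx 2
    have p3 := hx 3
    have p4 := hx 4
    refine ⟨?_, ?_⟩
    · by_contra hc
      push Not at hc
      have := hz 0 hc.1
      have := hz 1 hc.2
      linarith
    · by_contra hc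
      push Not at hc
      have := hz 2 hc.1
      have := hz 3 hc.2.1
      have := hz 4 hc.2.2
      linarith
  · rintro ⟨ha | ha, hb | hb | hb⟩
    · refine ⟨![a 0 - a 1, 0, a 1, 0, 0], ?_, ?_, ?_⟩
      · intro i; fin_cases i <;> simp <;> linarith
      · intro j; fin_cases j <;> simp [exDeg, Fin.sum_univ_succ]
      · intro i hi; fin_cases i <;> simp_all
    · refine ⟨![a 0, 0, 0, a 1, 0], ?_, ?_, ?_⟩
      · intro i; fin_cases i <;> simp <;> linarith
      · intro j; fin_cases j <;> simp [exDeg, Fin.sum_univ_succ]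
      · intro i hi; fin_cases i <;> simp_all
    · refine ⟨![a 0, 0, 0, 0, a 1], ?_, ?_, ?_⟩
      · intro i; fin_cases i <;> simp <;> linarith
      · intro j; fin_cases j <;> simp [exDeg, Fin.sum_univ_succ]
      · intro i hi; fin_cases i <;> simp_all
    · refine ⟨![0, a 0 - a 1, a 1, 0, 0], ?_, ?_, ?_⟩
      · intro i; fin_cases i <;> simp <;> linarith
      · intro j; fin_cases j <;> simp [exDeg, Fin.sum_univ_succ]
      · intro i hi; fin_cases i <;> simp_all
    · refine ⟨![0, a 0, 0, a 1, 0], ?_, ?_, ?_⟩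
      · intro i; fin_cases i <;> simp <;> linarith
      · intro j; fin_cases j <;> simp [exDeg, Fin.sum_univ_succ]
      · intro i hi; fin_cases i <;> simp_all
    · refine ⟨![0, a 0, 0, 0, a 1], ?_, ?_, ?_⟩
      · intro i; fin_cases i <;> simp <;> linarith
      · intro j; fin_cases j <;> simp [exDeg, Fin.sum_univ_succ]
      · intro i hi; fin_cases i <;> simp_all

theorem ex_stable' {a : Fin 2 → ℤ} {t : Fin 5 → ℂ} (h1 : a 0 < a 1) (h0 : 0 < a 0) :
    IsStable exDeg a t ↔ (t 0 ≠ 0 ∨ t 1 ≠ 0 ∨ t 2 ≠ 0) ∧ (t 3 ≠ 0 ∨ t 4 ≠ 0) := by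
  rw [isStable_iff_rat]
  have h1' : (a 0 : ℚ) < a 1 := by exact_mod_cast h1
  have h0' : (0 : ℚ) < a 0 := by exact_mod_cast h0
  constructor
  · rintro ⟨x, hx, hxd, hz⟩
    have e0 := hxd 0
    have e1 := hxd 1
    simp [exDeg, Fin.sum_univ_succ] at e0 e1
    have p0 := hx 0
    have p1 := hx 1
    have p2 := hx 2
    have p3 := hx 3
    have p4 := hx 4
    refine ⟨?_, ?_⟩
    · by_contra hc
      push Not at hc
      have := hz 0 hc.1
      have := hz 1 hc.2.1
      have := hz 2 hc.2.2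
      linarith
    · by_contra hc
      push Not at hc
      have := hz 3 hc.1
      have := hz 4 hc.2
      linarith
  · rintro ⟨ha | ha | ha, hb | hb⟩
    · refine ⟨![a 0, 0, 0, a 1, 0], ?_, ?_, ?_⟩
      · intro i; fin_cases i <;> simp <;> linarith
      · intro j; fin_cases j <;> simp [exDeg, Fin.sum_univ_succ]
      · intro i hi; fin_cases i <;> simp_all
    · refine ⟨![a 0, 0, 0, 0, a 1], ?_, ?_, ?_⟩
      · intro i; fin_cases i <;> simp <;> linarith
      · intro j; fin_cases j <;> simp [exDeg, Fin.sum_univ_succ]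
      · intro i hi; fin_cases i <;> simp_all
    · refine ⟨![0, a 0, 0, a 1, 0], ?_, ?_, ?_⟩
      · intro i; fin_cases i <;> simp <;> linarith
      · intro j; fin_cases j <;> simp [exDeg, Fin.sum_univ_succ]
      · intro i hi; fin_cases i <;> simp_all
    · refine ⟨![0, a 0, 0, 0, a 1], ?_, ?_, ?_⟩
      · intro i; fin_cases i <;> simp <;> linarith
      · intro j; fin_cases j <;> simp [exDeg, Fin.sum_univ_succ]
      · intro i hi; fin_cases i <;> simp_all
    · refine ⟨![0, 0, a 0, a 1 - a 0, 0], ?_, ?_, ?_⟩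
      · intro i; fin_cases i <;> simp <;> linarith
      · intro j; fin_cases j <;> simp [exDeg, Fin.sum_univ_succ]
      · intro i hi; fin_cases i <;> simp_all
    · refine ⟨![0, 0, a 0, 0, a 1 - a 0], ?_, ?_, ?_⟩
      · intro i; fin_cases i <;> simp <;> linarith
      · intro j; fin_cases j <;> simp [exDeg, Fin.sum_univ_succ]
      · intro i hi; fin_cases i <;> simp_all

theorem exDeg_free (i₀ : Fin 5) (a : Fin 2 → ℤ) : ∃ c : Fin 5 → ℤ, c i₀ = 0 ∧
    ∀ j, ∑ i, c i * exDeg i j = a j := by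
  fin_cases i₀
  · exact ⟨![0, a 0, 0, a 1, 0], by simp, by
      intro j; fin_cases j <;> simp [exDeg, Fin.sum_univ_succ]⟩
  · exact ⟨![a 0, 0, 0, a 1, 0], by simp, by
      intro j; fin_cases j <;> simp [exDeg, Fin.sum_univ_succ]⟩
  · exact ⟨![a 0, 0, 0, a 1, 0], by simp, by
      intro j; fin_cases j <;> simp [exDeg, Fin.sum_univ_succ]⟩
  · exact ⟨![a 0, 0, 0, 0, a 1], by simp, by
      intro j; fin_cases j <;> simp [exDeg, Fin.sum_univ_succ]⟩
  · exact ⟨![a 0, 0, 0, a 1, 0], by simp, by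
      intro j; fin_cases j <;> simp [exDeg, Fin.sum_univ_succ]⟩

theorem exDeg_projective : ∃ w : Fin 2 → ℤ, ∀ i, 0 < ∑ j, w j * exDeg i j := by
  refine ⟨![1, 1], fun i => ?_⟩
  fin_cases i <;> simp [exDeg, Fin.sum_univ_succ]

/-- One of the two small modifications. -/
def exF : ToricVariety 5 2 where
  deg := exDeg
  amp := ![2, 1]
  nonempty := ⟨fun _ => 1, (ex_stable (by simp) (by simp)).2 (by simp)⟩
  projective := exDeg_projective
  finite := by
    intro t ht a
    obtain ⟨ha | ha, hb | hb | hb⟩ := (ex_stable (by simp) (by simp)).1 ht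
    · exact ⟨1, ![a 0 - a 1, 0, a 1, 0, 0], one_pos, by
        intro i hi; fin_cases i <;> simp_all, by
        intro j; fin_cases j <;> simp [exDeg, Fin.sum_univ_succ]⟩
    · exact ⟨1, ![a 0, 0, 0, a 1, 0], one_pos, by
        intro i hi; fin_cases i <;> simp_all, by
        intro j; fin_cases j <;> simp [exDeg, Fin.sum_univ_succ]⟩
    · exact ⟨1, ![a 0, 0, 0, 0, a 1], one_pos, by
        intro i hi; fin_cases i <;> simp_all, by
        intro j; fin_cases j <;> simp [exDeg, Fin.sum_univ_succ]⟩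
    · exact ⟨1, ![0, a 0 - a 1, a 1, 0, 0], one_pos, by
        intro i hi; fin_cases i <;> simp_all, by
        intro j; fin_cases j <;> simp [exDeg, Fin.sum_univ_succ]⟩
    · exact ⟨1, ![0, a 0, 0, a 1, 0], one_pos, by
        intro i hi; fin_cases i <;> simp_all, by
        intro j; fin_cases j <;> simp [exDeg, Fin.sum_univ_succ]⟩
    · exact ⟨1, ![0, a 0, 0, 0, a 1], one_pos, by
        intro i hi; fin_cases i <;> simp_all, by
        intro j; fin_cases j <;> simp [exDeg, Fin.sum_univ_succ]⟩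
  free := exDeg_free
  divisor := by
    intro i
    refine ⟨fun j => if j = i then 0 else 1, (ex_stable (by simp) (by simp)).2 ?_, by simp, ?_⟩
    · fin_cases i <;> simp
    · intro j hj; simp [hj]

/-- The other small modification. -/
def exF' : ToricVariety 5 2 where
  deg := exDeg
  amp := ![1, 2]
  nonempty := ⟨fun _ => 1, (ex_stable' (by simp) (by simp)).2 (by simp)⟩
  projective := exDeg_projective
  finite := by
    intro t ht a
    obtain ⟨ha | ha | ha, hb | hb⟩ := (ex_stable' (by simp) (by simp)).1 ht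
    · exact ⟨1, ![a 0, 0, 0, a 1, 0], one_pos, by
        intro i hi; fin_cases i <;> simp_all, by
        intro j; fin_cases j <;> simp [exDeg, Fin.sum_univ_succ]⟩
    · exact ⟨1, ![a 0, 0, 0, 0, a 1], one_pos, by
        intro i hi; fin_cases i <;> simp_all, by
        intro j; fin_cases j <;> simp [exDeg, Fin.sum_univ_succ]⟩
    · exact ⟨1, ![0, a 0, 0, a 1, 0], one_pos, by
        intro i hi; fin_cases i <;> simp_all, by
        intro j; fin_cases j <;> simp [exDeg, Fin.sum_univ_succ]⟩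
    · exact ⟨1, ![0, a 0, 0, 0, a 1], one_pos, by
        intro i hi; fin_cases i <;> simp_all, by
        intro j; fin_cases j <;> simp [exDeg, Fin.sum_univ_succ]⟩
    · exact ⟨1, ![0, 0, a 0, a 1 - a 0, 0], one_pos, by
        intro i hi; fin_cases i <;> simp_all, by
        intro j; fin_cases j <;> simp [exDeg, Fin.sum_univ_succ]⟩
    · exact ⟨1, ![0, 0, a 0, 0, a 1 - a 0], one_pos, by
        intro i hi; fin_cases i <;> simp_all, by
        intro j; fin_cases j <;> simp [exDeg, Fin.sum_univ_succ]⟩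
  free := exDeg_free
  divisor := by
    intro i
    refine ⟨fun j => if j = i then 0 else 1, (ex_stable' (by simp) (by simp)).2 ?_, by simp, ?_⟩
    · fin_cases i <;> simp
    · intro j hj; simp [hj]

theorem ex_semi {t : Fin 5 → ℂ}
    (h : t 2 ≠ 0 ∨ ((t 0 ≠ 0 ∨ t 1 ≠ 0) ∧ (t 3 ≠ 0 ∨ t 4 ≠ 0))) :
    IsStable exDeg ![1, 1] t := by
  rw [isStable_iff_rat]
  rcases h with h | ⟨ha | ha, hb | hb⟩
  · refine ⟨![0, 0, 1, 0, 0], ?_, ?_, ?_⟩
    · intro i; fin_cases i <;> simp
    · intro j; fin_cases j <;> simp [exDeg, Fin.sum_univ_succ]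
    · intro i hi; fin_cases i <;> simp_all
  · refine ⟨![1, 0, 0, 1, 0], ?_, ?_, ?_⟩
    · intro i; fin_cases i <;> simp
    · intro j; fin_cases j <;> simp [exDeg, Fin.sum_univ_succ]
    · intro i hi; fin_cases i <;> simp_all
  · refine ⟨![1, 0, 0, 0, 1], ?_, ?_, ?_⟩
    · intro i; fin_cases i <;> simp
    · intro j; fin_cases j <;> simp [exDeg, Fin.sum_univ_succ]
    · intro i hi; fin_cases i <;> simp_all
  · refine ⟨![0, 1, 0, 1, 0], ?_, ?_, ?_⟩
    · intro i; fin_cases i <;> simp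
    · intro j; fin_cases j <;> simp [exDeg, Fin.sum_univ_succ]
    · intro i hi; fin_cases i <;> simp_all
  · refine ⟨![0, 1, 0, 0, 1], ?_, ?_, ?_⟩
    · intro i; fin_cases i <;> simp
    · intro j; fin_cases j <;> simp [exDeg, Fin.sum_univ_succ]
    · intro i hi; fin_cases i <;> simp_all

theorem exists_flip {g : ℕ} (T : Torus g) (L : Fin 5 → Factor T) :
    ∃ (F F' : ToricVariety 5 2) (D : Fin 2 → ℝ), IsFlip (bundle T L F) (bundle T L F') D := by
  refine ⟨exF, exF', ![-1, 1], rfl, ?_, ![1, 1], ?_, ?_, ?_, ?_⟩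
  · intro h
    have h1 := (h ![1, 0, 1, 0, 0]).1
      ((ex_stable (a := ![2, 1]) (by simp) (by simp)).2 (by simp))
    have h2 := (ex_stable' (a := ![1, 2]) (by simp) (by simp)).1 h1
    simp at h2
  · intro t ht
    have h2 := (ex_stable (a := ![2, 1]) (by simp) (by simp)).1 ht
    exact ex_semi (by tauto)
  · intro t ht
    have h2 := (ex_stable' (a := ![1, 2]) (by simp) (by simp)).1 ht
    exact ex_semi (by tauto)
  · refine ⟨0, fun _ => 1, fun _ => ![1, -1], by simp, fun _ => ⟨2, fun t => ?_⟩, ?_⟩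
    · exact (ex_stable (by simp) (by simp)).trans
        (ex_stable (a := ![2, 1]) (by simp) (by simp)).symm
    · intro j; fin_cases j <;> simp
  · refine ⟨0, fun _ => 1, fun _ => ![-1, 1], by simp, fun _ => ⟨2, fun t => ?_⟩, ?_⟩
    · exact (ex_stable' (by simp) (by simp)).trans
        (ex_stable' (a := ![1, 2]) (by simp) (by simp)).symm
    · intro j; fin_cases j <;> simp

end Vale.Agent.P277.ToricFlips
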