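import Vale.Agent.P277.H178.Defs
import Vale.Agent.P285.R3.H243.Cone

/-! Termination of flips of toric bundles. -/

namespace Vale.Agent.P277.ToricFlips

open Vale.Agent.P270 (Torus Factor IsStable isStable_iff IsStable.mono)
open Vale.Agent.P285.ToricOverTori

variable {n s : ℕ}

structure Good (deg : Fin n → Fin s → ℤ) (amp : Fin s → ℤ) : Prop where
  nonempty : ∃ t, IsStable deg amp t
  projective : ∃ w : Fin s → ℤ, ∀ i, 0 < ∑ j, w j * deg i j
  finite : ∀ t, IsStable deg amp t → ∀ a : Fin s → ℤ, ∃ (k : ℕ) (c : Fin n → ℤ), 0 < k ∧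
    (∀ i, t i = 0 → c i = 0) ∧ ∀ j, ∑ i, c i * deg i j = k * a j

theorem good (F : ToricVariety n s) : Good F.deg F.amp := ⟨F.nonempty, F.projective, F.finite⟩

/-- The point with the coordinate `0` where `ν ≠ 0`, and `1` elsewhere. -/
noncomputable def ind (ν : Fin n → ℚ) : Fin n → ℂ := fun i => if ν i = 0 then 1 else 0

theorem ind_eq_zero {ν : Fin n → ℚ} {i : Fin n} : ind ν i = 0 ↔ ν i ≠ 0 := by
  unfold ind
  split_ifs with h <;> simp [h]

/-- `ν` is reduced: nonnegative, and zero on a stable support. -/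
def Red (deg : Fin n → Fin s → ℤ) (amp : Fin s → ℤ) (ν : Fin n → ℚ) : Prop :=
  (∀ i, 0 ≤ ν i) ∧ IsStable deg amp (ind ν)

/-- The twist of a weight by a character. -/
def tw (deg : Fin n → Fin s → ℤ) (ν : Fin n → ℚ) (c : Fin s → ℚ) : Fin n → ℚ :=
  fun i => ν i + ∑ j, c j * (deg i j : ℚ)

variable {deg : Fin n → Fin s → ℤ} {amp amp' a w : Fin s → ℤ} {ν : Fin n → ℚ} {c c' u : Fin s → ℚ}

theorem tw_tw : tw deg (tw deg ν c) (c' - c) = tw deg ν c' := by
  funext i
  unfold tw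
  simp only [Pi.sub_apply, sub_mul, Finset.sum_sub_distrib]
  ring

theorem tw_zero : tw deg ν 0 = ν := by
  funext i
  unfold tw
  simp

theorem exists_red (G : Good deg amp) (ν : Fin n → ℚ) :
    ∃ c : Fin s → ℚ, Red deg amp (tw deg ν c) := by
  obtain ⟨w, hw⟩ := G.projective
  obtain ⟨t, ht⟩ := G.nonempty
  obtain ⟨x0, hx0, hx0d, -⟩ := isStable_iff_rat.1 ht
  obtain ⟨x, c, hx, hxd, hν, hcs⟩ := lp_duality (deg := fun i j => (deg i j : ℚ))
    (amp := fun j => (amp j : ℚ))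
    ⟨fun j => w j, fun i => by
      have h0 : (0 : ℚ) < ∑ j, (w j : ℚ) * (deg i j : ℚ) := by exact_mod_cast hw i
      exact h0⟩ ⟨x0, hx0, hx0d⟩ ν
  refine ⟨c, hν, isStable_iff_rat.2 ⟨x, hx, hxd, fun i hi => ?_⟩⟩
  have h1 := ind_eq_zero.1 hi
  rcases mul_eq_zero.1 (hcs i) with h | h
  · exact h
  · exact absurd h h1

theorem pair (h : IsStable deg a (ind ν)) (u : Fin s → ℚ) :
    ∃ x : Fin n → ℚ, (∀ i, 0 ≤ x i) ∧ (∀ j, ∑ i, x i * (deg i j : ℚ) = a j) ∧
      (∀ i, ν i ≠ 0 → x i = 0) ∧ ∑ j, u j * (a j : ℚ) = ∑ i, x i * tw deg ν u i := by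
  obtain ⟨x, hx, hxd, hx0⟩ := isStable_iff_rat.1 h
  have h0 : ∀ i, ν i ≠ 0 → x i = 0 := fun i hi => hx0 i (ind_eq_zero.2 hi)
  refine ⟨x, hx, hxd, h0, ?_⟩
  have h1 : ∀ i, x i * tw deg ν u i = ∑ j, u j * (x i * (deg i j : ℚ)) := by
    intro i
    unfold tw
    rw [mul_add]
    have : x i * ν i = 0 := by
      by_cases hi : ν i = 0
      · rw [hi, mul_zero]
      · rw [h0 i hi, zero_mul]
    rw [this, zero_add, Finset.mul_sum]
    exact Finset.sum_congr rfl fun j _ => by ring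
  rw [Finset.sum_congr rfl fun i _ => h1 i, Finset.sum_comm]
  refine Finset.sum_congr rfl fun j _ => ?_
  rw [← Finset.mul_sum, hxd j]

theorem pair_nonneg (h : IsStable deg a (ind ν)) (hu : ∀ i, 0 ≤ tw deg ν u i) :
    0 ≤ ∑ j, u j * (a j : ℚ) := by
  obtain ⟨x, hx, -, -, he⟩ := pair h u
  rw [he]
  exact Finset.sum_nonneg fun i _ => mul_nonneg (hx i) (hu i)

theorem eq_zero_of (G : Good deg amp) (ha : ∀ t, IsStable deg a t ↔ IsStable deg amp t)
    (h : IsStable deg amp (ind ν)) (hu : ∀ i, 0 ≤ tw deg ν u i)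
    (h0 : ∑ j, u j * (a j : ℚ) = 0) : u = 0 := by
  classical
  obtain ⟨x, hx, hxd, hx0, he⟩ := pair ((ha _).2 h) u
  rw [he] at h0
  have hz : ∀ i, x i * tw deg ν u i = 0 := fun i =>
    (Finset.sum_eq_zero_iff_of_nonneg fun i _ => mul_nonneg (hx i) (hu i)).1 h0 i
      (Finset.mem_univ i)
  have hst : IsStable deg amp (fun i => if x i = 0 then (0 : ℂ) else 1) := by
    rw [← ha, isStable_iff_rat]
    refine ⟨x, hx, hxd, fun i hi => ?_⟩
    by_contra hne
    simp [hne] at hi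
  funext j₀
  obtain ⟨k, c, hk, hc0, hc⟩ := G.finite _ hst (Pi.single j₀ 1)
  have h1 : (k : ℚ) * u j₀ = ∑ i, (c i : ℚ) * ∑ j, u j * (deg i j : ℚ) := by
    have h2 : ∑ i, (c i : ℚ) * ∑ j, u j * (deg i j : ℚ) =
        ∑ j, u j * ∑ i, (c i : ℚ) * (deg i j : ℚ) := by
      simp only [Finset.mul_sum]
      rw [Finset.sum_comm]
      exact Finset.sum_congr rfl fun j _ => Finset.sum_congr rfl fun i _ => by ring
    rw [h2]
    have h3 : ∀ j, ∑ i, (c i : ℚ) * (deg i j : ℚ) =
        k * (((Pi.single j₀ (1 : ℤ) : Fin s → ℤ) j : ℤ) : ℚ) := fun j => by exact_mod_cast hc j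
    simp only [h3]
    rw [Finset.sum_eq_single j₀]
    · simp
      ring
    · intro j _ hj
      simp [hj]
    · simp
  have h4 : ∀ i, (c i : ℚ) * ∑ j, u j * (deg i j : ℚ) = 0 := by
    intro i
    by_cases hxi : x i = 0
    · rw [hc0 i (by simp [hxi])]
      simp
    · have h5 : ν i = 0 := by
        by_contra hne
        exact hxi (hx0 i hne)
      have h6 : tw deg ν u i = 0 := by
        rcases mul_eq_zero.1 (hz i) with h | h
        · exact absurd h hxi
        · exact h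
      unfold tw at h6
      rw [h5, zero_add] at h6
      rw [h6, mul_zero]
  rw [Finset.sum_eq_zero fun i _ => h4 i] at h1
  have hk' : (k : ℚ) ≠ 0 := by exact_mod_cast hk.ne'
  simpa using (mul_eq_zero.1 h1).resolve_left hk'

/-- The reduced twist is unique. -/
theorem red_unique (G : Good deg amp) (h : Red deg amp (tw deg ν c))
    (h' : Red deg amp (tw deg ν c')) : c' = c := by
  have hu : ∀ i, 0 ≤ tw deg (tw deg ν c) (c' - c) i := by rw [tw_tw]; exact h'.1
  have hu' : ∀ i, 0 ≤ tw deg (tw deg ν c') (c - c') i := by rw [tw_tw]; exact h.1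
  have h1 := pair_nonneg (a := amp) h.2 hu
  have h2 := pair_nonneg (a := amp) h'.2 hu'
  have h3 : ∑ j, (c' - c) j * (amp j : ℚ) = 0 := by
    have h4 : ∑ j, (c - c') j * (amp j : ℚ) = -∑ j, (c' - c) j * (amp j : ℚ) := by
      rw [← Finset.sum_neg_distrib]
      exact Finset.sum_congr rfl fun j _ => by simp only [Pi.sub_apply]; ring
    linarith
  exact sub_eq_zero.1 (eq_zero_of G (fun _ => Iff.rfl) h.2 hu h3)

/-- The basic inequality at a flip. -/
theorem step (G : Good deg amp) (hw : ∀ t, IsStable deg amp t → IsStable deg w t)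
    (hw' : ∀ t, IsStable deg amp' t → IsStable deg w t)
    {D : Fin s → ℝ} {m : ℕ} {r : Fin (m + 1) → ℝ} {b : Fin (m + 1) → Fin s → ℤ}
    (hr : ∀ l, 0 < r l)
    (hb : ∀ l, ∃ k : ℕ, ∀ t, IsStable deg (fun j => b l j + k * w j) t ↔ IsStable deg amp t)
    (hD : ∀ j, -D j = ∑ l, r l * b l j)
    (h : Red deg amp (tw deg ν c)) (h' : Red deg amp' (tw deg ν c')) :
    ∑ j, (c' j : ℝ) * D j ≤ ∑ j, (c j : ℝ) * D j ∧
      (∑ j, (c' j : ℝ) * D j = ∑ j, (c j : ℝ) * D j → c' = c) := by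
  have hu : ∀ i, 0 ≤ tw deg (tw deg ν c) (c' - c) i := by rw [tw_tw]; exact h'.1
  have hu' : ∀ i, 0 ≤ tw deg (tw deg ν c') (c - c') i := by rw [tw_tw]; exact h.1
  have h1 := pair_nonneg (hw _ h.2) hu
  have h2 := pair_nonneg (hw' _ h'.2) hu'
  have h3 : ∑ j, (c' - c) j * (w j : ℚ) = 0 := by
    have h4 : ∑ j, (c - c') j * (w j : ℚ) = -∑ j, (c' - c) j * (w j : ℚ) := by
      rw [← Finset.sum_neg_distrib]
      exact Finset.sum_congr rfl fun j _ => by simp only [Pi.sub_apply]; ring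
    linarith
  have h5 : ∀ (l : Fin (m + 1)) (k : ℕ), ∑ j, (c' - c) j * ((b l j + k * w j : ℤ) : ℚ) =
      ∑ j, (c' - c) j * (b l j : ℚ) := by
    intro l k
    have h6 : ∑ j, (c' - c) j * ((b l j + k * w j : ℤ) : ℚ) =
        ∑ j, (c' - c) j * (b l j : ℚ) + k * ∑ j, (c' - c) j * (w j : ℚ) := by
      rw [Finset.mul_sum, ← Finset.sum_add_distrib]
      exact Finset.sum_congr rfl fun j _ => by push_cast; ring
    rw [h6, h3, mul_zero, add_zero]
  have h7 : ∀ l, 0 ≤ ∑ j, (c' - c) j * (b l j : ℚ) := by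
    intro l
    obtain ⟨k, hk⟩ := hb l
    have := pair_nonneg ((hk _).2 h.2) hu
    rwa [h5 l k] at this
  have h8 : ∑ j, (c j : ℝ) * D j - ∑ j, (c' j : ℝ) * D j =
      ∑ l, r l * ((∑ j, (c' - c) j * (b l j : ℚ) : ℚ) : ℝ) := by
    have h9 : ∑ l, r l * ((∑ j, (c' - c) j * (b l j : ℚ) : ℚ) : ℝ) =
        ∑ j, ((c' j : ℝ) - c j) * ∑ l, r l * (b l j : ℝ) := by
      simp only [Rat.cast_sum, Finset.mul_sum]
      rw [Finset.sum_comm]
      refine Finset.sum_congr rfl fun j _ => Finset.sum_congr rfl fun l _ => ?_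
      simp only [Pi.sub_apply]
      push_cast
      ring
    rw [h9, ← Finset.sum_sub_distrib]
    refine Finset.sum_congr rfl fun j _ => ?_
    rw [← hD j]
    ring
  have h10 : ∀ l ∈ Finset.univ, 0 ≤ r l * ((∑ j, (c' - c) j * (b l j : ℚ) : ℚ) : ℝ) :=
    fun l _ => mul_nonneg (hr l).le (by exact_mod_cast h7 l)
  refine ⟨?_, fun he => ?_⟩
  · have := Finset.sum_nonneg h10
    linarith
  · rw [he, sub_self] at h8
    have h11 := (Finset.sum_eq_zero_iff_of_nonneg h10).1 h8.symm 0 (Finset.mem_univ _)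
    have h12 : ∑ j, (c' - c) j * (b 0 j : ℚ) = 0 := by
      rcases mul_eq_zero.1 h11 with h | h
      · exact absurd h (hr 0).ne'
      · exact_mod_cast h
    obtain ⟨k, hk⟩ := hb 0
    exact sub_eq_zero.1 (eq_zero_of G hk h.2 hu ((h5 0 k).trans h12))

/-- The potential: the value of `D` on the reduced twist. -/
noncomputable def pot (D : Fin s → ℝ) (F : ToricVariety n s) (ν : Fin n → ℚ) : ℝ :=
  ∑ j, ((exists_red (good F) ν).choose j : ℝ) * D j

theorem pot_eq {D : Fin s → ℝ} {F : ToricVariety n s} {ν : Fin n → ℚ} {c : Fin s → ℚ}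
    (h : Red F.deg F.amp (tw F.deg ν c)) : pot D F ν = ∑ j, (c j : ℝ) * D j := by
  unfold pot
  rw [red_unique (good F) h (exists_red (good F) ν).choose_spec]

variable {g : ℕ} {D : Fin s → ℝ} {X X' : ToricBundle g n s}

theorem flip_step (h : IsFlip X X' D) {c c' : Fin s → ℚ}
    (hc : Red X.F.deg X.F.amp (tw X.F.deg ν c)) (hc' : Red X'.F.deg X'.F.amp (tw X'.F.deg ν c')) :
    pot D X'.F ν ≤ pot D X.F ν ∧ (pot D X'.F ν = pot D X.F ν → c' = c) := by
  obtain ⟨hdeg, -, w, hw, hw', ⟨m, r, b, hr, hb, hD⟩, -⟩ := h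
  rw [pot_eq hc, pot_eq hc']
  rw [hdeg] at hc'
  unfold IsSemiampleClass at hw'
  rw [hdeg] at hw'
  exact step (good X.F) hw hw' hr hb hD hc hc'

theorem pot_le (h : IsFlip X X' D) (ν : Fin n → ℚ) : pot D X'.F ν ≤ pot D X.F ν :=
  (flip_step h (exists_red (good X.F) ν).choose_spec
    (exists_red (good X'.F) ν).choose_spec).1

theorem red_iff {t : Fin n → ℂ} :
    Red deg amp (tw deg (fun i => if t i = 0 then 1 else 0) 0) ↔ IsStable deg amp t := by
  rw [tw_zero]
  constructor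
  · rintro ⟨-, h⟩
    refine h.mono fun i hi => ?_
    rw [ind_eq_zero]
    simp [hi]
  · intro h
    refine ⟨fun i => by beta_reduce; split_ifs <;> norm_num, h.mono fun i hi => ?_⟩
    rw [ind_eq_zero] at hi
    by_contra hne
    simp [hne] at hi

theorem pot_lt (h : IsFlip X X' D) : ∃ ν : Fin n → ℚ, pot D X'.F ν < pot D X.F ν := by
  have hne := h.2.1
  push Not at hne
  obtain ⟨t, ht⟩ := hne
  refine ⟨fun i => if t i = 0 then 1 else 0, lt_of_le_of_ne (pot_le h _) fun he => ?_⟩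
  rcases ht with ⟨h1, h2⟩ | ⟨h1, h2⟩
  · obtain ⟨c', hc'⟩ := exists_red (good X'.F) (fun i => if t i = 0 then (1 : ℚ) else 0)
    have h3 := (flip_step h (red_iff.2 h1) hc').2 he
    rw [h3] at hc'
    exact h2 (red_iff.1 hc')
  · obtain ⟨c, hc⟩ := exists_red (good X.F) (fun i => if t i = 0 then (1 : ℚ) else 0)
    have h3 := (flip_step h hc (red_iff.2 h2)).2 he
    rw [← h3] at hc
    exact h1 (red_iff.1 hc)

/-- The supports of the stable points. -/
noncomputable def St (F : ToricVariety n s) : Finset (Finset (Fin n)) :=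
  haveI := Classical.decPred fun I : Finset (Fin n) =>
    IsStable F.deg F.amp (fun i => if i ∈ I then 1 else 0)
  Finset.univ.filter fun I => IsStable F.deg F.amp (fun i => if i ∈ I then 1 else 0)

theorem mem_St {F : ToricVariety n s} {I : Finset (Fin n)} :
    I ∈ St F ↔ IsStable F.deg F.amp (fun i => if i ∈ I then 1 else 0) := by
  unfold St
  simp

theorem ind_stable_iff {F : ToricVariety n s} :
    IsStable F.deg F.amp (ind ν) ↔ (Finset.univ.filter fun i => ν i = 0) ∈ St F := by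
  rw [mem_St]
  have : ind ν = fun i => if i ∈ (Finset.univ.filter fun i => ν i = 0) then (1 : ℂ) else 0 := by
    funext i
    simp [ind]
  rw [this]

theorem pot_congr {F F' : ToricVariety n s} (hdeg : F'.deg = F.deg) (h : St F' = St F)
    (ν : Fin n → ℚ) : pot D F' ν = pot D F ν := by
  obtain ⟨c, hc⟩ := exists_red (good F) ν
  rw [pot_eq hc]
  refine pot_eq ⟨?_, ?_⟩
  · rw [hdeg]
    exact hc.1
  · rw [ind_stable_iff, h, hdeg, ← ind_stable_iff]
    exact hc.2

/-- A sequence of flips of toric bundles has less than `2 ^ 2 ^ n` steps. -/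
theorem bound {N : ℕ} {X : ℕ → ToricBundle g n s} (h : ∀ i < N, IsFlip (X i) (X (i + 1)) D) :
    N < 2 ^ 2 ^ n := by
  by_contra hN
  push Not at hN
  have hdeg : ∀ i k, i + k ≤ N → (X (i + k)).F.deg = (X i).F.deg := by
    intro i k
    induction k with
    | zero => intro _; rfl
    | succ k ih =>
      intro hk
      rw [← ih (by omega)]
      exact (h (i + k) (by omega)).1
  have hpot : ∀ (ν : Fin n → ℚ) i k, i + k ≤ N → pot D (X (i + k)).F ν ≤ pot D (X i).F ν := by
    intro ν i k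
    induction k with
    | zero => intro _; exact le_rfl
    | succ k ih =>
      intro hk
      exact (pot_le (h (i + k) (by omega)) ν).trans (ih (by omega))
  have hcard : Fintype.card (Finset (Finset (Fin n))) < Fintype.card (Fin (N + 1)) := by
    simp only [Fintype.card_finset, Fintype.card_fin]
    omega
  obtain ⟨i, j, hij, he⟩ := Fintype.exists_ne_map_eq_of_card_lt
    (fun i : Fin (N + 1) => St (X i).F) hcard
  have key : ∀ i j : ℕ, i < j → j ≤ N → St (X i).F = St (X j).F → False := by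
    intro i j hij hj he
    obtain ⟨ν, hν⟩ := pot_lt (h i (by omega))
    have h1 := hpot ν (i + 1) (j - (i + 1)) (by omega)
    have h2 : i + 1 + (j - (i + 1)) = j := by omega
    rw [h2] at h1
    have h3 := hdeg i (j - i) (by omega)
    have h4 : i + (j - i) = j := by omega
    rw [h4] at h3
    have h5 := pot_congr (D := D) h3 he.symm ν
    linarith
  rcases lt_or_gt_of_ne (fun h => hij (Fin.ext h) : (i : ℕ) ≠ j) with h1 | h1
  · exact key i j h1 (by omega) he
  · exact key j i h1 (by omega) he.symm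

end Vale.Agent.P277.ToricFlips
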